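import Vale.Agent.P216.H754.Norm
import Vale.Agent.P216.AS.Defs

/-!
# Bridge between functions on lists and Alexander-Spanier cochains (functions on tuples)

`toL c` is `c` on lists of the right length and `0` elsewhere, `ofL f x = f (List.ofFn x)`.
Every class of `H S T n` has a normalised representative, for `S, T` among `Cc`, `Zr`, `Zn`.
-/

open Finsupp Matrix Set

namespace Vale.Agent.P216.Sl

open Vale.Agent.P265 (AS.d)
open Vale.Agent.P216.AS

variable {k : Type} [Field k] {E E' : Type}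

/-- From cochains to functions on lists. -/
def toL {n : ℕ} (c : (Fin n → E) → k) (l : List E) : k :=
  if h : l.length = n then c (fun i => l.get (Fin.cast h.symm i)) else 0

/-- From functions on lists to cochains. -/
def ofL (n : ℕ) (f : List E → k) (x : Fin n → E) : k := f (List.ofFn x)

theorem toL_of_ne {n : ℕ} (c : (Fin n → E) → k) {l : List E} (h : l.length ≠ n) :
    toL c l = 0 := by rw [toL, dif_neg h]

theorem toL_ofFn {n : ℕ} (c : (Fin n → E) → k) (x : Fin n → E) : toL c (List.ofFn x) = c x := by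
  have h : (List.ofFn x).length = n := List.length_ofFn
  rw [toL, dif_pos h]
  congr 1
  funext i
  simp

theorem ofL_toL {n : ℕ} (c : (Fin n → E) → k) : ofL n (toL c) = c :=
  funext fun x => toL_ofFn c x

theorem exists_ofFn {n : ℕ} {l : List E} (h : l.length = n) : ∃ x : Fin n → E, List.ofFn x = l := by
  subst h
  exact ⟨fun i => l.get i, List.ofFn_get l⟩

theorem toL_ofL {n : ℕ} (f : List E → k) {l : List E} (h : l.length = n) :
    toL (ofL n f) l = f l := by
  obtain ⟨x, rfl⟩ := exists_ofFn h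
  rw [toL_ofFn]; rfl

theorem ofFn_vecCons {n : ℕ} (a : E) (x : Fin n → E) :
    List.ofFn (vecCons a x) = a :: List.ofFn x := by
  rw [List.ofFn_succ]
  simp

theorem toL_cons {n : ℕ} (c : (Fin (n + 1) → E) → k) (a : E) (l : List E) :
    toL c (a :: l) = toL (fun y => c (vecCons a y)) l := by
  by_cases h : l.length = n
  · obtain ⟨x, rfl⟩ := exists_ofFn h
    rw [← ofFn_vecCons, toL_ofFn, toL_ofFn]
  · rw [toL_of_ne _ h, toL_of_ne]
    simpa using h

theorem toL_d {n : ℕ} (c : (Fin n → E) → k) (l : List E) :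
    toL (P265.AS.d c) l = dl (toL c) l := by
  induction n generalizing l with
  | zero =>
    rcases l with _ | ⟨a, l⟩
    · rw [toL_of_ne _ (by simp), dl, bdL_nil, map_zero]
    · rcases l with _ | ⟨b, l⟩
      · rw [toL_cons, dl, bdL_cons, bdL_nil, map_zero, sub_zero, ev_single, one_mul]
        congr 1
      · rw [toL_of_ne _ (by simp), dl]
        symm
        refine ev_zero_of (P := Ln (l.length + 1)) (fun l' hl' => toL_of_ne _ ?_)
          (bdL_mem' (by simp))
        have : l'.length = l.length + 1 := hl'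
        omega
  | succ n ih =>
    rcases l with _ | ⟨a, l⟩
    · rw [toL_of_ne _ (by simp), dl, bdL_nil, map_zero]
    · have e1 : (fun y => P265.AS.d c (vecCons a y)) =
          fun y => c y - P265.AS.d (fun z => c (vecCons a z)) y := by
        funext y
        rw [P265.AS.d_cons]
      have e2 : toL (fun y => c y - P265.AS.d (fun z => c (vecCons a z)) y) l =
          toL c l - toL (P265.AS.d (fun z => c (vecCons a z))) l := by
        by_cases h : l.length = n + 1
        · obtain ⟨x, rfl⟩ := exists_ofFn h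
          rw [toL_ofFn, toL_ofFn, toL_ofFn]
        · rw [toL_of_ne _ h, toL_of_ne _ h, toL_of_ne _ h, sub_zero]
      rw [toL_cons, e1, e2, ih, dl, dl, bdL_cons, map_sub, ev_single, one_mul, ev_cons]
      congr 2
      congr 1
      funext l'
      rw [toL_cons]

/-! ### Normalisation of cochains -/

/-- Normalisation of a cochain. -/
noncomputable def nrmA {n : ℕ} (c : (Fin n → E) → k) : (Fin n → E) → k := ofL n (nrm (toL c))

/-- The homotopy on cochains. -/
noncomputable def hmA {n : ℕ} (c : (Fin (n + 1) → E) → k) : (Fin n → E) → k :=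
  ofL n (hmt (toL c))

theorem toL_nrmA {n : ℕ} (c : (Fin n → E) → k) : toL (nrmA c) = nrm (toL c) := by
  funext l
  by_cases h : l.length = n
  · rw [nrmA, toL_ofL _ h]
  · rw [toL_of_ne _ h]
    symm
    exact nrm_eq_zero fun l' hl' _ => toL_of_ne _ (by omega)

theorem toL_hmA {n : ℕ} (c : (Fin (n + 1) → E) → k) : toL (hmA c) = hmt (toL c) := by
  funext l
  by_cases h : l.length = n
  · rw [hmA, toL_ofL _ h]
  · rw [toL_of_ne _ h]
    symm
    exact hmt_eq_zero fun l' hl' _ => toL_of_ne _ (by omega)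

theorem toL_injective {n : ℕ} {c c' : (Fin n → E) → k} (h : toL c = toL c') : c = c' := by
  rw [← ofL_toL c, ← ofL_toL c', h]

theorem toL_add {n : ℕ} (c c' : (Fin n → E) → k) (l : List E) :
    toL (c + c') l = toL c l + toL c' l := by
  by_cases h : l.length = n
  · obtain ⟨x, rfl⟩ := exists_ofFn h
    rw [toL_ofFn, toL_ofFn, toL_ofFn]; rfl
  · rw [toL_of_ne _ h, toL_of_ne _ h, toL_of_ne _ h, add_zero]

theorem toL_sub {n : ℕ} (c c' : (Fin n → E) → k) (l : List E) :
    toL (c - c') l = toL c l - toL c' l := by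
  by_cases h : l.length = n
  · obtain ⟨x, rfl⟩ := exists_ofFn h
    rw [toL_ofFn, toL_ofFn, toL_ofFn]; rfl
  · rw [toL_of_ne _ h, toL_of_ne _ h, toL_of_ne _ h, sub_zero]

theorem toL_smul {n : ℕ} (a : k) (c : (Fin n → E) → k) (l : List E) :
    toL (a • c) l = a * toL c l := by
  by_cases h : l.length = n
  · obtain ⟨x, rfl⟩ := exists_ofFn h
    rw [toL_ofFn, toL_ofFn]; rfl
  · rw [toL_of_ne _ h, toL_of_ne _ h, mul_zero]

theorem Nrm_nrmA {n : ℕ} (c : (Fin n → E) → k) : Nrm (toL (nrmA c)) := by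
  rw [toL_nrmA]; exact nrm_Nrm _

theorem Nrm_hmA {n : ℕ} {c : (Fin (n + 1) → E) → k} (h : Nrm (toL c)) : Nrm (toL (hmA c)) := by
  rw [toL_hmA]; exact h.hmt

/-- Normalisation commutes with `d`. -/
theorem d_nrmA {n : ℕ} (c : (Fin n → E) → k) :
    P265.AS.d (nrmA c) = nrmA (P265.AS.d c) := by
  refine toL_injective (funext fun l => ?_)
  rw [toL_d, toL_nrmA, toL_nrmA, dl_nrm]
  congr 1
  funext l'
  rw [toL_d]

/-- The homotopy formula. -/
theorem nrmA_sub {n : ℕ} (c : (Fin (n + 1) → E) → k) :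
    nrmA c - c = P265.AS.d (hmA c) + hmA (P265.AS.d c) := by
  refine toL_injective (funext fun l => ?_)
  rw [toL_sub, toL_add, toL_nrmA, toL_d, toL_hmA, toL_hmA, nrm_sub]
  congr 2
  funext l'
  rw [toL_d]

theorem nrmA_zero_apply (c : (Fin 0 → E) → k) : nrmA c = c := by
  refine toL_injective (funext fun l => ?_)
  rw [toL_nrmA]
  rcases l with _ | ⟨a, l⟩
  · exact nrm_of_len_le_one _ (by simp)
  · rw [toL_of_ne _ (by simp)]
    exact nrm_eq_zero fun l' hl' _ => toL_of_ne _ (by simp only [List.length_cons] at hl'; omega)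

theorem nrmA_one_apply (c : (Fin 1 → E) → k) : nrmA c = c := by
  funext x
  have h : (List.ofFn x).length ≤ 1 := by simp
  change nrm (toL c) (List.ofFn x) = _
  rw [nrm_of_len_le_one _ h, toL_ofFn]

theorem nrmA_add {n : ℕ} (c c' : (Fin n → E) → k) : nrmA (c + c') = nrmA c + nrmA c' := by
  refine toL_injective (funext fun l => ?_)
  rw [toL_add, toL_nrmA, toL_nrmA, toL_nrmA, ← nrm_add]
  exact nrm_congr fun l' _ _ => toL_add _ _ _

theorem nrmA_smul {n : ℕ} (a : k) (c : (Fin n → E) → k) : nrmA (a • c) = a • nrmA c := by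
  refine toL_injective (funext fun l => ?_)
  rw [toL_smul, toL_nrmA, toL_nrmA, ← nrm_smul]
  exact nrm_congr fun l' _ _ => toL_smul _ _ _

theorem hmA_add {n : ℕ} (c c' : (Fin (n + 1) → E) → k) : hmA (c + c') = hmA c + hmA c' := by
  refine toL_injective (funext fun l => ?_)
  rw [toL_add, toL_hmA, toL_hmA, toL_hmA, ← hmt_add]
  exact hmt_congr fun l' _ _ => toL_add _ _ _

theorem hmA_smul {n : ℕ} (a : k) (c : (Fin (n + 1) → E) → k) : hmA (a • c) = a • hmA c := by
  refine toL_injective (funext fun l => ?_)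
  rw [toL_smul, toL_hmA, toL_hmA, ← hmt_smul]
  exact hmt_congr fun l' _ _ => toL_smul _ _ _

/-- Normalisation as a linear map. -/
noncomputable def nrmAL (E k : Type) [Field k] (n : ℕ) :
    ((Fin n → E) → k) →ₗ[k] ((Fin n → E) → k) where
  toFun := nrmA
  map_add' := nrmA_add
  map_smul' := nrmA_smul

/-- The homotopy as a linear map. -/
noncomputable def hmAL (E k : Type) [Field k] (n : ℕ) :
    ((Fin (n + 1) → E) → k) →ₗ[k] ((Fin n → E) → k) where
  toFun := hmA
  map_add' := hmA_add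
  map_smul' := hmA_smul

/-! ### Carriers -/

theorem sub_of_mem {m n : ℕ} {y : Fin m → E} {x : Fin n → E}
    (h : ∀ a ∈ List.ofFn y, a ∈ List.ofFn x) : P265.AS.Sub y x := fun i => by
  have h1 := h (y i) (List.mem_ofFn.2 ⟨i, rfl⟩)
  obtain ⟨j, hj⟩ := List.mem_ofFn.1 h1
  exact ⟨j, hj.symm⟩

theorem nrmA_congr {n : ℕ} {c c' : (Fin n → E) → k} {x : Fin n → E}
    (h : ∀ y : Fin n → E, P265.AS.Sub y x → c y = c' y) : nrmA c x = nrmA c' x := by
  refine nrm_congr fun l' hl' hm => ?_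
  obtain ⟨y, rfl⟩ := exists_ofFn (hl'.trans List.length_ofFn)
  rw [toL_ofFn, toL_ofFn]
  exact h y (sub_of_mem hm)

theorem hmA_congr {n : ℕ} {c c' : (Fin (n + 1) → E) → k} {x : Fin n → E}
    (h : ∀ y : Fin (n + 1) → E, P265.AS.Sub y x → c y = c' y) : hmA c x = hmA c' x := by
  refine hmt_congr fun l' hl' hm => ?_
  obtain ⟨y, rfl⟩ := exists_ofFn (hl'.trans (by rw [List.length_ofFn]))
  rw [toL_ofFn, toL_ofFn]
  exact h y (sub_of_mem hm)

theorem nrmA_eq_zero {n : ℕ} {c : (Fin n → E) → k} {x : Fin n → E}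
    (h : ∀ y : Fin n → E, P265.AS.Sub y x → c y = 0) : nrmA c x = 0 := by
  rw [nrmA_congr (c' := 0) h]
  exact congrFun ((nrmAL E k n).map_zero) x

theorem hmA_eq_zero {n : ℕ} {c : (Fin (n + 1) → E) → k} {x : Fin n → E}
    (h : ∀ y : Fin (n + 1) → E, P265.AS.Sub y x → c y = 0) : hmA c x = 0 := by
  rw [hmA_congr (c' := 0) h]
  exact congrFun ((hmAL E k n).map_zero) x

theorem toL_pb {n : ℕ} (g : E → E') (c : (Fin n → E') → k) (l : List E) :
    toL (P265.AS.pb g c) l = toL c (l.map g) := by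
  by_cases h : l.length = n
  · obtain ⟨x, rfl⟩ := exists_ofFn h
    rw [toL_ofFn, List.map_ofFn, toL_ofFn]; rfl
  · rw [toL_of_ne _ h, toL_of_ne]
    simpa using h

/-- Normalisation is natural. -/
theorem nrmA_pb {n : ℕ} (g : E → E') (c : (Fin n → E') → k) :
    nrmA (P265.AS.pb g c) = P265.AS.pb g (nrmA c) := by
  refine toL_injective (funext fun l => ?_)
  rw [toL_pb, toL_nrmA, toL_nrmA, nrm_map]
  exact nrm_congr fun l' _ _ => toL_pb _ _ _

theorem hmA_pb {n : ℕ} (g : E → E') (c : (Fin (n + 1) → E') → k) :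
    hmA (P265.AS.pb g c) = P265.AS.pb g (hmA c) := by
  refine toL_injective (funext fun l => ?_)
  rw [toL_pb, toL_hmA, toL_hmA, hmt_map]
  exact hmt_congr fun l' _ _ => toL_pb _ _ _

/-! ### Stable subcomplexes -/

section Stable

variable {I : Type}

theorem mem_of_sub {m n : ℕ} {y : Fin m → E} {x : Fin n → E} (h : P265.AS.Sub y x) {X : Set E}
    (hx : ∀ j, x j ∈ X) : ∀ j, y j ∈ X := fun j => by
  obtain ⟨i, hi⟩ := h j
  rw [hi]; exact hx i

theorem Eqv.nrmA {a : I → E → E} {χ : I → k} {X : Set E} {n : ℕ} {c : (Fin n → E) → k}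
    (h : AS.Eqv a χ X c) : AS.Eqv a χ X (Sl.nrmA c) := fun i x hx => by
  have h1 : Sl.nrmA c (a i ∘ x) = Sl.nrmA (P265.AS.pb (a i) c) x := by
    rw [nrmA_pb]; rfl
  rw [h1, nrmA_congr (c := P265.AS.pb (a i) c) (c' := χ i • c) (fun y hy => h i y (mem_of_sub hy hx)), nrmA_smul]
  rfl

theorem Eqv.hmA {a : I → E → E} {χ : I → k} {X : Set E} {n : ℕ} {c : (Fin (n + 1) → E) → k}
    (h : AS.Eqv a χ X c) : AS.Eqv a χ X (Sl.hmA c) := fun i x hx => by
  have h1 : Sl.hmA c (a i ∘ x) = Sl.hmA (P265.AS.pb (a i) c) x := by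
    rw [hmA_pb]; rfl
  rw [h1, hmA_congr (c := P265.AS.pb (a i) c) (c' := χ i • c) (fun y hy => h i y (mem_of_sub hy hx)), hmA_smul]
  rfl

/-- A subcomplex stable under normalisation and the homotopy. -/
structure Stb (S : AS.Sub (ASK E k)) : Prop where
  nrm : ∀ {n : ℕ} {x : (Fin (n + 1) → E) → k}, x ∈ S n → nrmA x ∈ S n
  hm : ∀ {n : ℕ} {x : (Fin (n + 2) → E) → k}, x ∈ S (n + 1) → hmA x ∈ S n

theorem Stb_Cc {a : I → E → E} {χ : I → k} {X : Set E} : Stb (Cc a χ X) :=
  ⟨fun h => Eqv.nrmA h, fun h => Eqv.hmA h⟩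

variable [PseudoMetricSpace E]

theorem Van.nrmA {A : Set E} {n : ℕ} {c : (Fin n → E) → k} (h : Van A c) :
    Van A (Sl.nrmA c) := by
  obtain ⟨ε, hε, h⟩ := h
  exact ⟨ε, hε, fun x hx => nrmA_eq_zero fun y hy => h y (hx.sub hy)⟩

theorem Van.hmA {A : Set E} {n : ℕ} {c : (Fin (n + 1) → E) → k} (h : Van A c) :
    Van A (Sl.hmA c) := by
  obtain ⟨ε, hε, h⟩ := h
  exact ⟨ε, hε, fun x hx => hmA_eq_zero fun y hy => h y (hx.sub hy)⟩

theorem VanN.nrmA {X A : Set E} {n : ℕ} {c : (Fin n → E) → k} (h : VanN X A c) :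
    VanN X A (Sl.nrmA c) := by
  obtain ⟨ε, hε, h⟩ := h
  exact ⟨ε, hε, fun x hx => nrmA_eq_zero fun y hy => h y (hx.sub hy)⟩

theorem VanN.hmA {X A : Set E} {n : ℕ} {c : (Fin (n + 1) → E) → k} (h : VanN X A c) :
    VanN X A (Sl.hmA c) := by
  obtain ⟨ε, hε, h⟩ := h
  exact ⟨ε, hε, fun x hx => hmA_eq_zero fun y hy => h y (hx.sub hy)⟩

theorem Stb_Zr {a : I → E → E} {χ : I → k} {X A : Set E} : Stb (Zr a χ X A) :=
  ⟨fun h => ⟨Eqv.nrmA h.1, Van.nrmA h.2⟩, fun h => ⟨Eqv.hmA h.1, Van.hmA h.2⟩⟩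

theorem Stb_Zn {a : I → E → E} {χ : I → k} {X A : Set E} : Stb (Zn a χ X A) :=
  ⟨fun h => ⟨Eqv.nrmA h.1, VanN.nrmA h.2⟩, fun h => ⟨Eqv.hmA h.1, VanN.hmA h.2⟩⟩

omit [PseudoMetricSpace E]

/-- Normalisation of a relative cocycle. -/
theorem nrmA_mem_Zc {S T : AS.Sub (ASK E k)} (hS : Stb S) (hT : Stb T) {n : ℕ}
    {x : (Fin (n + 1) → E) → k} (hx : x ∈ Zc S T n) : nrmA x ∈ Zc S T n := by
  refine ⟨hS.nrm hx.1, ?_⟩
  change P265.AS.d (nrmA x) ∈ T (n + 1)
  rw [d_nrmA]
  exact hT.nrm hx.2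

/-- The normalised cocycle is in the same class. -/
theorem nrmA_sub_mem_Bc {S T : AS.Sub (ASK E k)} (hS : Stb S) (hT : Stb T) {n : ℕ}
    {x : (Fin (n + 1) → E) → k} (hx : x ∈ Zc S T n) : nrmA x - x ∈ Bc S T n := by
  cases n with
  | zero =>
    rw [nrmA_one_apply, sub_self]
    exact Submodule.zero_mem _
  | succ n =>
    rw [nrmA_sub]
    exact Submodule.add_mem _ (d_mem_Bc (hS.hm hx.1)) (T_le_Bc _ _ _ (hT.hm hx.2))

theorem mk_nrmA {S T : AS.Sub (ASK E k)} (hS : Stb S) (hT : Stb T) {n : ℕ}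
    {x : (Fin (n + 1) → E) → k} (hx : x ∈ Zc S T n) :
    H.mk (S := S) (T := T) (n := n) (nrmA x) (nrmA_mem_Zc hS hT hx) =
      H.mk (S := S) (T := T) (n := n) x hx :=
  H.mk_eq_mk.2 (nrmA_sub_mem_Bc hS hT hx)

/-- **Every class has a normalised representative.** -/
theorem exists_mk_Nrm {S T : AS.Sub (ASK E k)} (hS : Stb S) (hT : Stb T) {n : ℕ}
    (h : H S T n) : ∃ (x : (Fin (n + 1) → E) → k) (hx : x ∈ Zc S T n),
      Nrm (toL x) ∧ H.mk (S := S) (T := T) (n := n) x hx = h := by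
  obtain ⟨x, hx, rfl⟩ := H.exists_mk h
  exact ⟨nrmA x, nrmA_mem_Zc hS hT hx, Nrm_nrmA _, mk_nrmA hS hT hx⟩

/-- A normalised coboundary is the coboundary of a normalised cochain. -/
theorem exists_Nrm_primitive {S T : AS.Sub (ASK E k)} (hS : Stb S) (hT : Stb T) {n : ℕ}
    {x : (Fin (n + 2) → E) → k} (hx : x ∈ Zc S T (n + 1)) (hN : Nrm (toL x))
    (hB : x ∈ Bc S T (n + 1)) :
    ∃ y ∈ S n, Nrm (toL y) ∧ x - P265.AS.d y ∈ T (n + 1) := by
  obtain ⟨y, hy, h⟩ := mem_Bc_succ.1 hB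
  have hy' : y ∈ S n := hy
  have h' : x - P265.AS.d y ∈ T (n + 1) := h
  refine ⟨nrmA y - hmA x, Submodule.sub_mem _ (hS.nrm hy') (hS.hm hx.1), ?_, ?_⟩
  · have : toL (nrmA y - hmA x) = fun l => toL (nrmA y) l - toL (hmA x) l :=
      funext fun l => toL_sub _ _ _
    rw [this]
    exact (Nrm_nrmA y).sub (Nrm_hmA hN)
  · have e1 := nrmA_sub x
    have e2 : nrmA (x - P265.AS.d y) = nrmA x - P265.AS.d (nrmA y) := by
      rw [d_nrmA]
      exact (nrmAL E k (n + 2)).map_sub _ _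
    have e3 : x - P265.AS.d (nrmA y - hmA x) =
        nrmA (x - P265.AS.d y) - hmA (P265.AS.d x) := by
      rw [P265.AS.d_sub, e2]
      have : P265.AS.d (hmA x) = nrmA x - x - hmA (P265.AS.d x) := by rw [e1]; abel
      rw [this]
      abel
    rw [e3]
    exact Submodule.sub_mem _ (hT.nrm h') (hT.hm hx.2)

end Stable

end Vale.Agent.P216.Sl
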