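import Vale.Agent.P216.H787.Edges

/-!
# Normalisation of cochains on lists

`nu n` (on lists of length `n`): `nu 0 = id`, `nu (n + 1) (x :: l) = x * nu n (bd (x :: l))`.
It is a chain map, it kills the lists with two equal consecutive entries, and `hm` is a homotopy
from the identity to `nu`. Everything is carried by the entries of the list.
-/

open Finsupp

namespace Vale.Agent.P216.Sl

variable {k : Type} [Field k]
variable {α β : Type}

/-! ### The chain map -/

/-- The normalisation on lists of length `n`. -/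
noncomputable def nuL : ℕ → List α → Ch k α
  | 0, l => single l 1
  | _ + 1, [] => 0
  | n + 1, x :: l => cons x (Finsupp.linearCombination k (nuL n) (bdL (x :: l)))

/-- The normalisation on chains of lists of length `n`. -/
noncomputable def nu (n : ℕ) : Ch k α →ₗ[k] Ch k α := Finsupp.linearCombination k (nuL n)

@[simp] theorem nu_single (n : ℕ) (l : List α) : nu n (single l (1 : k)) = nuL n l := by
  simp [nu, Finsupp.linearCombination_single]

theorem nuL_zero (l : List α) : nuL 0 l = (single l 1 : Ch k α) := rfl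

theorem nuL_cons (n : ℕ) (x : α) (l : List α) :
    nuL (n + 1) (x :: l) = cons x (nu n (bdL (x :: l) : Ch k α)) := rfl

theorem bdL_mem' {n : ℕ} {l : List α} (h : l.length = n + 1) :
    (bdL l : Ch k α) ∈ Sp k (Ln n) :=
  Sp_mono (fun l' hl' => by
    have : l'.length + 1 = l.length := hl'
    change l'.length = n
    omega) (bdL_mem l)

theorem bd_mem' {n : ℕ} {c : Ch k α} (h : c ∈ Sp k (Ln (n + 1))) : bd c ∈ Sp k (Ln n) :=
  map_mem bd (fun l hl => by rw [bd_single, one_smul]; exact bdL_mem' hl) h

theorem bd_zero_of {c : Ch k α} (h : c ∈ Sp k (Ln 0)) : bd c = 0 := by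
  have := eq_of_mem (P := Ln 0) (F := bd) (G := (0 : Ch k α →ₗ[k] Ch k α)) (fun l hl => by
    have : l = [] := List.length_eq_zero_iff.1 hl
    subst this
    simp [bdL_nil]) h
  simpa using this

/-- `nu` is a chain map. -/
theorem bd_nu (n : ℕ) {c : Ch k α} (hc : c ∈ Sp k (Ln (n + 1))) :
    bd (nu (n + 1) c) = nu n (bd c) := by
  induction n generalizing c with
  | zero =>
    refine eq_of_mem (P := Ln 1) (F := bd ∘ₗ nu 1) (G := nu 0 ∘ₗ bd) (fun l hl => ?_) hc
    obtain ⟨x, rfl⟩ := List.length_eq_one_iff.1 hl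
    simp only [LinearMap.comp_apply, nu_single, nuL_cons, bd_single, one_smul, bdL_cons, bdL_nil,
      map_zero, sub_zero, nuL_zero, cons_single]
  | succ n ih =>
    refine eq_of_mem (P := Ln (n + 2)) (F := bd ∘ₗ nu (n + 2)) (G := nu (n + 1) ∘ₗ bd)
      (fun l hl => ?_) hc
    rcases l with _ | ⟨x, l⟩
    · simp [Ln] at hl
    simp only [LinearMap.comp_apply, nu_single, nuL_cons, bd_single, one_smul]
    have hm : (bdL (x :: l) : Ch k α) ∈ Sp k (Ln (n + 1)) := bdL_mem' hl
    have h0 : bd (bdL (x :: l) : Ch k α) = 0 := by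
      have := bd_bd (single (x :: l) (1 : k))
      rwa [bd_single, one_smul] at this
    rw [bd_cons, ih hm, h0, map_zero, map_zero, sub_zero]

/-! ### Degenerate lists -/

/-- Lists with two equal consecutive entries. -/
def Dg (l : List α) : Prop := ¬ l.IsChain (· ≠ ·)

theorem dg_dup (x : α) (l : List α) : Dg (x :: x :: l) := fun hc => by
  rw [List.isChain_cons_cons] at hc
  exact hc.1 rfl

theorem Dg.cons {l : List α} (h : Dg l) (x : α) : Dg (x :: l) := fun hc => h hc.tail

theorem dg_cases {x : α} {l : List α} (h : Dg (x :: l)) :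
    (∃ l', l = x :: l') ∨ Dg l := by
  rcases l with _ | ⟨y, l⟩
  · exact absurd (List.isChain_singleton x) h
  · by_cases hxy : x = y
    · subst hxy
      exact Or.inl ⟨l, rfl⟩
    · refine Or.inr fun hc => h ?_
      rw [List.isChain_cons_cons]
      exact ⟨hxy, hc⟩

theorem bdL_dg {l : List α} (h : Dg l) : (bdL l : Ch k α) ∈ Sp k Dg := by
  induction l with
  | nil => exact absurd List.isChain_nil h
  | cons x l ih =>
    rcases dg_cases h with ⟨l', rfl⟩ | hl
    · have e : (bdL (x :: x :: l') : Ch k α) = cons x (cons x (bdL l')) := by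
        rw [bdL_cons, bdL_cons, map_sub, cons_single]
        abel
      rw [e]
      have hm : ∀ c : Ch k α, cons x (cons x c) ∈ Sp k Dg := fun c =>
        map_mem (P := fun _ => True) (N := Sp k Dg) ((cons x).comp (cons x) : Ch k α →ₗ[k] Ch k α)
          (fun l _ => by
            rw [LinearMap.comp_apply, cons_single, cons_single]
            exact single_mem (dg_dup x l) _) (by simp [Finsupp.mem_supported])
      exact hm _
    · rw [bdL_cons]
      refine Submodule.sub_mem _ (single_mem hl _) ?_
      exact map_mem _ (fun l' hl' => by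
        rw [cons_single]
        exact single_mem (Dg.cons hl' x) _) (ih hl)

theorem nuL_dg (n : ℕ) {l : List α} (hn : l.length = n) (h : Dg l) : (nuL n l : Ch k α) = 0 := by
  induction n generalizing l with
  | zero =>
    have : l = [] := List.length_eq_zero_iff.1 hn
    subst this
    exact absurd List.isChain_nil h
  | succ n ih =>
    rcases l with _ | ⟨x, l⟩
    · rfl
    · rw [nuL_cons]
      have h1 : (bdL (x :: l) : Ch k α) ∈ Sp k (fun l => Ln n l ∧ Dg l) := by
        have a := bdL_mem' (k := k) hn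
        have b := bdL_dg (k := k) h
        rw [Finsupp.mem_supported] at a b ⊢
        exact fun l hl => ⟨a hl, b hl⟩
      have h2 : nu n (bdL (x :: l) : Ch k α) = 0 := by
        have := eq_of_mem (F := nu n) (G := (0 : Ch k α →ₗ[k] Ch k α))
          (fun l (hl : Ln n l ∧ Dg l) => by rw [nu_single, ih hl.1 hl.2]; rfl) h1
        simpa using this
      rw [h2, map_zero]

/-! ### The homotopy -/

/-- The homotopy on lists of length `n`. -/
noncomputable def hmL : ℕ → List α → Ch k α
  | 0, _ => 0
  | _ + 1, [] => 0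
  | n + 1, x :: l => cons x (nuL (n + 1) (x :: l) - single (x :: l) 1 -
      Finsupp.linearCombination k (hmL n) (bdL (x :: l)))

/-- The homotopy on chains of lists of length `n`. -/
noncomputable def hm (n : ℕ) : Ch k α →ₗ[k] Ch k α := Finsupp.linearCombination k (hmL n)

@[simp] theorem hm_single (n : ℕ) (l : List α) : hm n (single l (1 : k)) = hmL n l := by
  simp [hm, Finsupp.linearCombination_single]

theorem hmL_zero (l : List α) : (hmL 0 l : Ch k α) = 0 := rfl

theorem hmL_cons (n : ℕ) (x : α) (l : List α) :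
    (hmL (n + 1) (x :: l) : Ch k α) =
      cons x (nuL (n + 1) (x :: l) - single (x :: l) 1 - hm n (bdL (x :: l))) := rfl

theorem bd_hm_zero {c : Ch k α} (hc : c ∈ Sp k (Ln 0)) : nu 0 c - c = bd (hm 0 c) := by
  refine eq_of_mem (P := Ln 0) (F := nu 0 - LinearMap.id) (G := bd ∘ₗ hm 0) (fun l _ => ?_) hc
  simp only [LinearMap.sub_apply, LinearMap.comp_apply, nu_single, hm_single, LinearMap.id_apply,
    nuL_zero, hmL_zero, map_zero, sub_self]

/-- The homotopy formula. -/
theorem bd_hm (n : ℕ) {c : Ch k α} (hc : c ∈ Sp k (Ln (n + 1))) :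
    nu (n + 1) c - c = bd (hm (n + 1) c) + hm n (bd c) := by
  induction n generalizing c with
  | zero =>
    refine eq_of_mem (P := Ln 1) (F := nu 1 - LinearMap.id) (G := bd ∘ₗ hm 1 + hm 0 ∘ₗ bd)
      (fun l hl => ?_) hc
    obtain ⟨x, rfl⟩ := List.length_eq_one_iff.1 hl
    simp only [LinearMap.sub_apply, LinearMap.add_apply, LinearMap.comp_apply, nu_single,
      hm_single, LinearMap.id_apply, nuL_cons, hmL_cons, bd_single, one_smul, bdL_cons, bdL_nil,
      map_zero, sub_zero, nuL_zero, hmL_zero, cons_single, sub_self, add_zero]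
  | succ n ih =>
    refine eq_of_mem (P := Ln (n + 2)) (F := nu (n + 2) - LinearMap.id)
      (G := bd ∘ₗ hm (n + 2) + hm (n + 1) ∘ₗ bd) (fun l hl => ?_) hc
    rcases l with _ | ⟨x, l⟩
    · simp [Ln] at hl
    simp only [LinearMap.sub_apply, LinearMap.add_apply, LinearMap.comp_apply, nu_single,
      hm_single, LinearMap.id_apply, bd_single, one_smul]
    have hm1 : (bdL (x :: l) : Ch k α) ∈ Sp k (Ln (n + 1)) := bdL_mem' hl
    have h0 : bd (bdL (x :: l) : Ch k α) = 0 := by
      have := bd_bd (single (x :: l) (1 : k))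
      rwa [bd_single, one_smul] at this
    have h1 : bd (nuL (n + 2) (x :: l) : Ch k α) = nu (n + 1) (bdL (x :: l)) := by
      have := bd_nu (n + 1) (c := (single (x :: l) 1 : Ch k α)) (single_mem hl _)
      rwa [nu_single, bd_single, one_smul] at this
    have h2 := ih hm1
    rw [h0, map_zero, add_zero] at h2
    have e : bd (nuL (n + 1 + 1) (x :: l) - single (x :: l) 1 - hm (n + 1) (bdL (x :: l)) :
        Ch k α) = 0 := by
      rw [map_sub, map_sub, h1, bd_single, one_smul, ← h2, sub_self]
    rw [hmL_cons, bd_cons, e, map_zero]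
    abel

/-- The homotopy preserves the degenerate chains. -/
theorem hmL_dg (n : ℕ) {l : List α} (hn : l.length = n) (h : Dg l) :
    (hmL n l : Ch k α) ∈ Sp k Dg := by
  induction n generalizing l with
  | zero => exact Submodule.zero_mem _
  | succ n ih =>
    rcases l with _ | ⟨x, l⟩
    · exact Submodule.zero_mem _
    · rw [hmL_cons, nuL_dg _ hn h, zero_sub]
      have h1 : (bdL (x :: l) : Ch k α) ∈ Sp k (fun l => Ln n l ∧ Dg l) := by
        have a := bdL_mem' (k := k) hn
        have b := bdL_dg (k := k) h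
        rw [Finsupp.mem_supported] at a b ⊢
        exact fun l hl => ⟨a hl, b hl⟩
      have h2 : hm n (bdL (x :: l) : Ch k α) ∈ Sp k Dg :=
        map_mem (N := Sp k Dg) (hm n) (fun l (hl : Ln n l ∧ Dg l) => by
          rw [hm_single]; exact ih hl.1 hl.2) h1
      have h3 : (-single (x :: l) 1 - hm n (bdL (x :: l)) : Ch k α) ∈ Sp k Dg :=
        Submodule.sub_mem _ (Submodule.neg_mem _ (single_mem h _)) h2
      exact map_mem (N := Sp k Dg) (cons x) (fun l' hl' => by
        rw [cons_single]; exact single_mem (Dg.cons hl' x) _) h3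

/-! ### Carriers -/

/-- The entries of `l'` are entries of `l` and `l'` has length `m`. -/
def Cr (m : ℕ) (l : List α) (l' : List α) : Prop := l'.length = m ∧ ∀ x ∈ l', x ∈ l

theorem bdL_cr (l : List α) : (bdL l : Ch k α) ∈ Sp k (fun l' => ∀ x ∈ l', x ∈ l) := by
  induction l with
  | nil => exact Submodule.zero_mem _
  | cons x l ih =>
    rw [bdL_cons]
    refine Submodule.sub_mem _ (single_mem (P := fun l' => ∀ y ∈ l', y ∈ x :: l)
      (fun y hy => List.mem_cons_of_mem _ hy) _) ?_
    exact map_mem _ (fun l' hl' => by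
      rw [cons_single]
      refine single_mem (P := fun l' => ∀ y ∈ l', y ∈ x :: l) (fun y hy => ?_) _
      rcases List.mem_cons.1 hy with rfl | hy
      · exact List.mem_cons_self
      · exact List.mem_cons_of_mem _ (hl' y hy)) ih

theorem bdL_cr' {n : ℕ} {l : List α} (h : l.length = n + 1) :
    (bdL l : Ch k α) ∈ Sp k (Cr n l) := by
  have a := bdL_mem' (k := k) h
  have b := bdL_cr (k := k) l
  rw [Finsupp.mem_supported] at a b ⊢
  exact fun l hl => ⟨a hl, b hl⟩

theorem cons_cr {m : ℕ} {x : α} {l : List α} {c : Ch k α} (h : c ∈ Sp k (Cr m (x :: l))) :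
    cons x c ∈ Sp k (Cr (m + 1) (x :: l)) :=
  map_mem _ (fun l' hl' => by
    rw [cons_single]
    refine single_mem ⟨by simpa using hl'.1, fun y hy => ?_⟩ _
    rcases List.mem_cons.1 hy with rfl | hy
    · exact List.mem_cons_self
    · exact hl'.2 y hy) h

theorem nuL_cr (n : ℕ) {l : List α} (hn : l.length = n) :
    (nuL n l : Ch k α) ∈ Sp k (Cr n l) := by
  induction n generalizing l with
  | zero => exact single_mem ⟨hn, fun _ h => h⟩ _
  | succ n ih =>
    rcases l with _ | ⟨x, l⟩
    · simp at hn
    · rw [nuL_cons]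
      refine cons_cr ?_
      refine map_mem _ (fun l' hl' => ?_) (bdL_cr' hn)
      rw [nu_single]
      exact Sp_mono (fun l'' hl'' => ⟨hl''.1, fun y hy => hl'.2 y (hl''.2 y hy)⟩) (ih hl'.1)

theorem hmL_cr (n : ℕ) {l : List α} (hn : l.length = n) :
    (hmL n l : Ch k α) ∈ Sp k (Cr (n + 1) l) := by
  induction n generalizing l with
  | zero => exact Submodule.zero_mem _
  | succ n ih =>
    rcases l with _ | ⟨x, l⟩
    · simp at hn
    · rw [hmL_cons]
      refine cons_cr (Submodule.sub_mem _ (Submodule.sub_mem _ (nuL_cr _ hn)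
        (single_mem ⟨hn, fun _ h => h⟩ _)) ?_)
      refine map_mem _ (fun l' hl' => ?_) (bdL_cr' hn)
      rw [hm_single]
      exact Sp_mono (fun l'' hl'' => ⟨hl''.1, fun y hy => hl'.2 y (hl''.2 y hy)⟩) (ih hl'.1)

/-! ### Naturality -/

theorem nuL_map (f : α → β) (n : ℕ) {l : List α} (hn : l.length = n) :
    nuL n (l.map f) = mp f (nuL n l : Ch k α) := by
  induction n generalizing l with
  | zero => rw [nuL_zero, nuL_zero, mp_single]
  | succ n ih =>
    rcases l with _ | ⟨x, l⟩
    · simp at hn
    · rw [List.map_cons, nuL_cons, nuL_cons, mp_cons]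
      congr 1
      have h1 : (bdL (f x :: l.map f) : Ch k β) = mp f (bdL (x :: l)) := by
        have := bd_mp f (single (x :: l) (1 : k))
        rwa [mp_single, bd_single, bd_single, one_smul, one_smul] at this
      rw [h1]
      exact eq_of_mem (F := ((nu n).comp (mp f) : Ch k α →ₗ[k] Ch k β))
        (G := ((mp f).comp (nu n) : Ch k α →ₗ[k] Ch k β)) (fun l' (hl' : Ln n l') => by
        rw [LinearMap.comp_apply, LinearMap.comp_apply, mp_single, nu_single, nu_single,
          ih hl']) (bdL_mem' hn)

theorem hmL_map (f : α → β) (n : ℕ) {l : List α} (hn : l.length = n) :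
    hmL n (l.map f) = mp f (hmL n l : Ch k α) := by
  induction n generalizing l with
  | zero => rw [hmL_zero, hmL_zero, map_zero]
  | succ n ih =>
    rcases l with _ | ⟨x, l⟩
    · simp at hn
    · rw [List.map_cons, hmL_cons, hmL_cons, mp_cons]
      have h0 := nuL_map (k := k) f (n + 1) hn
      have h1 : (bdL (f x :: l.map f) : Ch k β) = mp f (bdL (x :: l)) := by
        have := bd_mp f (single (x :: l) (1 : k))
        rwa [mp_single, bd_single, bd_single, one_smul, one_smul] at this
      have h2 : hm n (mp f (bdL (x :: l) : Ch k α)) = mp f (hm n (bdL (x :: l))) :=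
        eq_of_mem (F := ((hm n).comp (mp f) : Ch k α →ₗ[k] Ch k β))
          (G := ((mp f).comp (hm n) : Ch k α →ₗ[k] Ch k β)) (fun l' (hl' : Ln n l') => by
          rw [LinearMap.comp_apply, LinearMap.comp_apply, mp_single, hm_single, hm_single,
            ih hl']) (bdL_mem' hn)
      rw [List.map_cons] at h0
      rw [(mp (k := k) f).map_sub, (mp (k := k) f).map_sub, mp_single, h0, h1, h2,
        List.map_cons]

/-! ### The dual operators -/

/-- Normalisation of a function on lists. -/
noncomputable def nrm (f : List α → k) (l : List α) : k := ev f (nuL l.length l)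

/-- The homotopy on functions on lists. -/
noncomputable def hmt (f : List α → k) (l : List α) : k := ev f (hmL l.length l)

theorem nrm_Nrm (f : List α → k) : Nrm (nrm f) := fun l hl => by
  rw [nrm, nuL_dg _ rfl hl, map_zero]

theorem ev_nrm (f : List α → k) {n : ℕ} {c : Ch k α} (hc : c ∈ Sp k (Ln n)) :
    ev (nrm f) c = ev f (nu n c) :=
  eq_of_mem (P := Ln n) (F := ev (nrm f)) (G := ev f ∘ₗ nu n) (fun l hl => by
    have hl' : l.length = n := hl
    rw [ev_single, one_mul, nrm, hl', LinearMap.comp_apply, nu_single]) hc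

theorem ev_hmt (f : List α → k) {n : ℕ} {c : Ch k α} (hc : c ∈ Sp k (Ln n)) :
    ev (hmt f) c = ev f (hm n c) :=
  eq_of_mem (P := Ln n) (F := ev (hmt f)) (G := ev f ∘ₗ hm n) (fun l hl => by
    have hl' : l.length = n := hl
    rw [ev_single, one_mul, hmt, hl', LinearMap.comp_apply, hm_single]) hc

/-- Normalisation commutes with the coboundary. -/
theorem dl_nrm (f : List α → k) (l : List α) : dl (nrm f) l = nrm (dl f) l := by
  rcases l with _ | ⟨x, l⟩
  · rw [dl, nrm, bdL_nil, map_zero]
    change 0 = ev (dl f) (single [] 1)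
    rw [ev_single, dl, bdL_nil, map_zero, mul_zero]
  · have hl : (x :: l).length = l.length + 1 := rfl
    rw [dl, ev_nrm f (bdL_mem' hl), nrm, ev_dl, hl]
    have := bd_nu l.length (c := (single (x :: l) 1 : Ch k α)) (single_mem hl _)
    rw [nu_single, bd_single, one_smul] at this
    rw [this]

/-- The homotopy formula for functions. -/
theorem nrm_sub (f : List α → k) (l : List α) :
    nrm f l - f l = dl (hmt f) l + hmt (dl f) l := by
  rcases l with _ | ⟨x, l⟩
  · rw [dl, hmt, nrm, bdL_nil, map_zero]
    change ev f (single [] 1) - f [] = 0 + ev (dl f) (0 : Ch k α)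
    rw [ev_single, map_zero]
    ring
  · have hl : (x :: l).length = l.length + 1 := rfl
    have h := bd_hm l.length (c := (single (x :: l) 1 : Ch k α)) (single_mem hl _)
    rw [nu_single, hm_single, bd_single, one_smul] at h
    rw [dl, ev_hmt f (bdL_mem' hl), nrm, hmt, ev_dl, hl]
    have h2 := congrArg (ev f) h
    rw [map_sub, map_add, ev_single, one_mul] at h2
    rw [h2]
    ring

theorem nrm_eq_zero {f : List α → k} {l : List α}
    (h : ∀ l', l'.length = l.length → (∀ x ∈ l', x ∈ l) → f l' = 0) : nrm f l = 0 :=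
  ev_zero_of (fun l' (hl' : Cr l.length l l') => h l' hl'.1 hl'.2) (nuL_cr _ rfl)

theorem hmt_eq_zero {f : List α → k} {l : List α}
    (h : ∀ l', l'.length = l.length + 1 → (∀ x ∈ l', x ∈ l) → f l' = 0) : hmt f l = 0 :=
  ev_zero_of (fun l' (hl' : Cr (l.length + 1) l l') => h l' hl'.1 hl'.2) (hmL_cr _ rfl)

theorem nrm_map (g : α → β) (f : List β → k) (l : List α) :
    nrm f (l.map g) = nrm (fun l => f (l.map g)) l := by
  rw [nrm, nrm, List.length_map, nuL_map g _ rfl, ev_mp]

theorem hmt_map (g : α → β) (f : List β → k) (l : List α) :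
    hmt f (l.map g) = hmt (fun l => f (l.map g)) l := by
  rw [hmt, hmt, List.length_map, hmL_map g _ rfl, ev_mp]

theorem nrm_congr {f f' : List α → k} {l : List α}
    (h : ∀ l', l'.length = l.length → (∀ x ∈ l', x ∈ l) → f l' = f' l') : nrm f l = nrm f' l :=
  ev_congr (fun l' (hl' : Cr l.length l l') => h l' hl'.1 hl'.2) (nuL_cr _ rfl)

theorem hmt_congr {f f' : List α → k} {l : List α}
    (h : ∀ l', l'.length = l.length + 1 → (∀ x ∈ l', x ∈ l) → f l' = f' l') :
    hmt f l = hmt f' l :=
  ev_congr (fun l' (hl' : Cr (l.length + 1) l l') => h l' hl'.1 hl'.2) (hmL_cr _ rfl)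

theorem nrm_add (f f' : List α → k) (l : List α) :
    nrm (fun l => f l + f' l) l = nrm f l + nrm f' l := ev_add_fun _ _ _

theorem hmt_add (f f' : List α → k) (l : List α) :
    hmt (fun l => f l + f' l) l = hmt f l + hmt f' l := ev_add_fun _ _ _

theorem nrm_smul (a : k) (f : List α → k) (l : List α) :
    nrm (fun l => a * f l) l = a * nrm f l := ev_smul_fun _ _ _

theorem hmt_smul (a : k) (f : List α → k) (l : List α) :
    hmt (fun l => a * f l) l = a * hmt f l := ev_smul_fun _ _ _

/-- A normalised function is not changed ... up to lists of equal entries: the constant lists. -/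
theorem nrm_of_len_le_one (f : List α → k) {l : List α} (h : l.length ≤ 1) : nrm f l = f l := by
  rcases l with _ | ⟨x, _ | ⟨y, l⟩⟩
  · change ev f (single [] 1) = _
    rw [ev_single, one_mul]
  · change ev f (cons x (nu 0 (bdL [x]))) = _
    rw [bdL_cons, bdL_nil, map_zero, sub_zero, nu_single, nuL_zero, cons_single, ev_single,
      one_mul]
  · simp at h

theorem Nrm.hmt {f : List α → k} (h : Nrm f) : Nrm (hmt f) := fun _ hl =>
  ev_zero_of (P := Dg) (fun l' hl' => h l' hl') (hmL_dg _ rfl hl)

theorem Nrm.add {f g : List α → k} (h : Nrm f) (h' : Nrm g) : Nrm fun l => f l + g l :=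
  fun l hl => by simp only [h l hl, h' l hl, add_zero]

theorem Nrm.sub {f g : List α → k} (h : Nrm f) (h' : Nrm g) : Nrm fun l => f l - g l :=
  fun l hl => by simp only [h l hl, h' l hl, sub_zero]

theorem Nrm.smul {f : List α → k} (a : k) (h : Nrm f) : Nrm fun l => a * f l :=
  fun l hl => by simp only [h l hl, mul_zero]

theorem Nrm.dl {f : List α → k} (h : Nrm f) : Nrm (dl f) := fun _ hl =>
  ev_zero_of (P := Dg) (fun l' hl' => h l' hl') (bdL_dg hl)

/-! ### Detection by cycles -/

theorem exists_factor {V W : Type} [AddCommGroup V] [Module k V] [AddCommGroup W] [Module k W]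
    (φ : V →ₗ[k] W) (N : Submodule k V) (F : V →ₗ[k] k) (h : ∀ z ∈ N, φ z = 0 → F z = 0) :
    ∃ G : W →ₗ[k] k, ∀ z ∈ N, F z = G (φ z) := by
  have h1 : (F ∘ₗ N.subtype : Module.Dual k N) ∈
      LinearMap.range (LinearMap.dualMap (φ ∘ₗ N.subtype)) := by
    rw [LinearMap.range_dualMap_eq_dualAnnihilator_ker, Submodule.mem_dualAnnihilator]
    intro z hz
    exact h z z.2 (LinearMap.mem_ker.1 hz)
  obtain ⟨G, hG⟩ := h1
  exact ⟨G, fun z hz => (LinearMap.congr_fun hG ⟨z, hz⟩).symm⟩

/-- A function that kills all cycles supported on `P` is a coboundary on `P`. -/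
theorem exists_dl_of_cycles {P : List α → Prop} {f : List α → k}
    (h : ∀ z ∈ Sp k P, bd z = 0 → ev f z = 0) : ∃ g : List α → k, ∀ l, P l → f l = dl g l := by
  obtain ⟨G, hG⟩ := exists_factor (bd : Ch k α →ₗ[k] Ch k α) (Sp k P) (ev f) h
  refine ⟨fun l => G (single l 1), fun l hl => ?_⟩
  have h2 : ev (fun l => G (single l 1)) = G := lin_ext fun l => by rw [ev_single, one_mul]
  have h3 := hG (single l 1) (single_mem hl _)
  rw [ev_single, one_mul, bd_single, one_smul] at h3
  rw [dl, h2, h3]

/-- Detection: if `f` is not a coboundary on `P`, there is a cycle on `P` with value `1`. -/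
theorem exists_cycle {P : List α → Prop} {f : List α → k}
    (h : ¬ ∃ g : List α → k, ∀ l, P l → f l = dl g l) :
    ∃ z ∈ Sp k P, bd z = 0 ∧ ev f z = 1 := by
  by_contra hc
  push Not at hc
  refine h (exists_dl_of_cycles fun z hz hbz => ?_)
  by_contra h0
  refine hc ((ev f z)⁻¹ • z) (Submodule.smul_mem _ _ hz) (by rw [map_smul, hbz, smul_zero]) ?_
  rw [map_smul, smul_eq_mul, inv_mul_cancel₀ h0]

end Vale.Agent.P216.Sl
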